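import Vale.Agent.P060.Variants

namespace Vale.Agent.Results.P060.A000_Combined

open Vale.Agent.P060

universe u

/-- Four sufficient conditions for Hadwiger's conjecture in graphs with a sparse complement,
in one statement. -/
theorem result :
    (∀ (V : Type u) [Fintype V] (G : SimpleGraph V) (d n : ℕ),
      (∀ v, ((compl G).neighborSet v).ncard ≤ d) →
      ∀ (a b : Fin n → V), Function.Injective (Sum.elim a b) →
      (∀ i, (compl G).Adj (a i) (b i)) →
      8 * d ^ 3 + 2 * n * d < n ^ 2 →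
      G.chromaticNumber ≤ (hadwigerNumber G : ℕ∞)) ∧
    (∀ (V : Type u) [Fintype V] (G : SimpleGraph V) (d n t l : ℕ),
      (∀ v, ((compl G).neighborSet v).ncard ≤ d) →
      ∀ (a b : Fin n → V), Function.Injective (Sum.elim a b) →
      (∀ i, (compl G).Adj (a i) (b i)) →
      1 ≤ t → d ^ 2 ≤ t * n → Fintype.card V ≤ 2 ^ l →
      512 * t * (l + 24 * t + 1) ≤ n →
      G.chromaticNumber ≤ (hadwigerNumber G : ℕ∞)) ∧
    (∀ (V : Type u) [Fintype V] (G : SimpleGraph V) (d n l c : ℕ),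
      (∀ v, ((compl G).neighborSet v).ncard ≤ d) →
      G.Colorable c → c + 2 * n ≤ Fintype.card V →
      Fintype.card V ≤ 2 ^ l →
      51200 * d ^ 4 ≤ n ^ 3 → 12800 * (l + 1) ^ 2 ≤ n →
      G.chromaticNumber ≤ (hadwigerNumber G : ℕ∞)) ∧
    (∀ (V : Type u) [Fintype V] (G : SimpleGraph V) (d n l : ℕ),
      (∀ s : Finset V, G.IsIndepSet s → s.card ≤ 2) →
      (∀ v, ((compl G).neighborSet v).ncard ≤ d) →
      Fintype.card V ≤ 2 ^ l →
      51200 * d ^ 4 ≤ n ^ 3 → 12800 * (l + 1) ^ 2 ≤ n →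
      4 * n ≤ Fintype.card V →
      HasCliqueMinor G ((Fintype.card V + 1) / 2)) :=
  ⟨fun _ _ G d n hdeg a b hinj hab hn => hadwiger_of_sparse_compl G d n hdeg a b hinj hab hn,
   fun _ _ G d n t l hdeg a b hinj hab ht1 ht hl hn =>
     hadwiger_of_sparse_compl_load G d n t l hdeg a b hinj hab ht1 ht hl hn,
   fun _ _ G d n l c hdeg hc hgap hl h1 h2 =>
     hadwiger_of_chromatic_gap_crisp G d n l c hdeg hc hgap hl h1 h2,
   fun _ _ G d n l hα hdeg hl h1 h2 hm =>
     half_minor_of_indep_two_crisp G d n l hα hdeg hl h1 h2 hm⟩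

end Vale.Agent.Results.P060.A000_Combined
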