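import Vale.Agent.P060.Variants

namespace Vale.Agent.Results.P060.ChromaticGap

open Vale.Agent.P060

/-- Hadwiger's conjecture for graphs with a sparse complement whose chromatic number is
bounded away from the number of vertices: let `G` have at most `2 ^ l` vertices, every vertex with
at most `d` non-neighbours, and let `G` be `c`-colourable with `c + 2 n ≤ |V(G)|`.
If `n ^ 3 ≥ 51200 d ^ 4` and `n ≥ 12800 (l + 1) ^ 2`, then `χ(G) ≤ h(G)`. -/
theorem result {V : Type*} [Fintype V] (G : SimpleGraph V) (d n l c : ℕ)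
    (hdeg : ∀ v, ((compl G).neighborSet v).ncard ≤ d)
    (hc : G.Colorable c) (hgap : c + 2 * n ≤ Fintype.card V)
    (hl : Fintype.card V ≤ 2 ^ l)
    (h1 : 51200 * d ^ 4 ≤ n ^ 3) (h2 : 12800 * (l + 1) ^ 2 ≤ n) :
    G.chromaticNumber ≤ (hadwigerNumber G : ℕ∞) :=
  hadwiger_of_chromatic_gap_crisp G d n l c hdeg hc hgap hl h1 h2

end Vale.Agent.Results.P060.ChromaticGap
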