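import Vale.Agent.P060.Variants

namespace Vale.Agent.Results.P060.IndepTwoHalfMinor

open Vale.Agent.P060

/-- Graphs with independence number at most two and a sparse complement have a clique minor on
half of the vertices (rounded up): let `G` have `m ≤ 2 ^ l` vertices, no three pairwise
non-adjacent vertices, and every vertex with at most `d` non-neighbours. If `4 n ≤ m`,
`n ^ 3 ≥ 51200 d ^ 4` and `n ≥ 12800 (l + 1) ^ 2`, then `G` has a `K_{⌈m/2⌉}` minor. -/
theorem result {V : Type*} [Fintype V] (G : SimpleGraph V) (d n l : ℕ)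
    (hα : ∀ s : Finset V, G.IsIndepSet s → s.card ≤ 2)
    (hdeg : ∀ v, ((compl G).neighborSet v).ncard ≤ d)
    (hl : Fintype.card V ≤ 2 ^ l)
    (h1 : 51200 * d ^ 4 ≤ n ^ 3) (h2 : 12800 * (l + 1) ^ 2 ≤ n)
    (hm : 4 * n ≤ Fintype.card V) :
    HasCliqueMinor G ((Fintype.card V + 1) / 2) :=
  half_minor_of_indep_two_crisp G d n l hα hdeg hl h1 h2 hm

end Vale.Agent.Results.P060.IndepTwoHalfMinor
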