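import Vale.Agent.P060.Final

namespace Vale.Agent.Results.P060.SparseComplement

open Vale.Agent.P060

/-- Hadwiger's conjecture for graphs with a sparse complement that has a large matching:
if every vertex of the finite graph `G` has at most `d` non-neighbours and `G` has `n` pairwise
disjoint pairs of non-adjacent vertices with `n ^ 2 > 8 d ^ 3 + 2 n d`, then `χ(G) ≤ h(G)`. -/
theorem result {V : Type*} [Fintype V] (G : SimpleGraph V) (d n : ℕ)
    (hdeg : ∀ v, ((compl G).neighborSet v).ncard ≤ d)
    (a b : Fin n → V) (hinj : Function.Injective (Sum.elim a b))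
    (hab : ∀ i, (compl G).Adj (a i) (b i))
    (hn : 8 * d ^ 3 + 2 * n * d < n ^ 2) :
    G.chromaticNumber ≤ (hadwigerNumber G : ℕ∞) :=
  hadwiger_of_sparse_compl G d n hdeg a b hinj hab hn

end Vale.Agent.Results.P060.SparseComplement
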