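import Vale.Agent.P060.LoadFinal

namespace Vale.Agent.Results.P060.SparseComplementFourThirds

open Vale.Agent.P060

/-- Hadwiger's conjecture for graphs with a sparse complement, exponent `4/3`:
let `G` have at most `2 ^ l` vertices, every vertex with at most `d` non-neighbours, and let the
complement contain a matching with `n` edges. If `t ≥ 1`, `d ^ 2 ≤ t n` and
`n ≥ 512 t (l + 24 t + 1)`, then `χ(G) ≤ h(G)`. -/
theorem result {V : Type*} [Fintype V] (G : SimpleGraph V) (d n t l : ℕ)
    (hdeg : ∀ v, ((compl G).neighborSet v).ncard ≤ d)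
    (a b : Fin n → V) (hinj : Function.Injective (Sum.elim a b))
    (hab : ∀ i, (compl G).Adj (a i) (b i))
    (ht1 : 1 ≤ t) (ht : d ^ 2 ≤ t * n) (hl : Fintype.card V ≤ 2 ^ l)
    (hn : 512 * t * (l + 24 * t + 1) ≤ n) :
    G.chromaticNumber ≤ (hadwigerNumber G : ℕ∞) :=
  hadwiger_of_sparse_compl_load G d n t l hdeg a b hinj hab ht1 ht hl hn

end Vale.Agent.Results.P060.SparseComplementFourThirds
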